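import Mathlib

/-!
# P160, Sarkozy-Szemeredi lemma, piece SS-1: the abstract lazy-chain level bound (pool job 299)

A weighted directed graph `q` on a finite type, increasing for `f`, with sizes `sz` moving up by
at most one along an edge, balanced in-flow minus out-flow, and entrance weight at most `1/2`.
The lazy chain `u (k+1) S = u k S (1 - out S / n) + (1/n) ∑ q S' S * u k S'` keeps mass at least
`1/5` on the sets of size at least `n/2 - √n` for `n √n` steps, and the mass of `{f ≤ x}` drops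
at each step by the out-flow of the level `{f = x}`.
-/

namespace Vale.Agent.Lib.P160.H71

open Finset

theorem h71_sqrt_ge (N : ℝ) (hN : 16 ≤ N) : 4 ≤ Real.sqrt N := by
  have h0 : (0 : ℝ) ≤ Real.sqrt N := Real.sqrt_nonneg N
  have hss : Real.sqrt N * Real.sqrt N = N := Real.mul_self_sqrt (by linarith)
  by_contra h
  rw [not_le] at h
  nlinarith

theorem h71_exp_const : (1 : ℝ) / 5 ≤ Real.exp (-(3 / 2)) := by
  have h1 : Real.exp 1 < 2.72 := lt_trans Real.exp_one_lt_d9 (by norm_num)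
  have h3 : Real.exp (3 / 2) * Real.exp (3 / 2) = Real.exp 1 * Real.exp 1 * Real.exp 1 := by
    rw [← Real.exp_add, ← Real.exp_add, ← Real.exp_add]
    norm_num
  have hpos : 0 < Real.exp (3 / 2) := Real.exp_pos _
  have h1p : 0 < Real.exp 1 := Real.exp_pos _
  have h5 : Real.exp (3 / 2) ≤ 5 := by
    by_contra hcon
    rw [not_le] at hcon
    have hA : 25 < Real.exp (3 / 2) * Real.exp (3 / 2) := by nlinarith
    have hB : Real.exp 1 * Real.exp 1 < 2.72 * 2.72 := mul_lt_mul'' h1 h1 h1p.le h1p.le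
    have hC : Real.exp 1 * Real.exp 1 * Real.exp 1 < 2.72 * 2.72 * 2.72 :=
      mul_lt_mul'' hB h1 (by positivity) h1p.le
    norm_num at hC
    linarith
  rw [Real.exp_neg, one_div]
  exact inv_anti₀ hpos h5

theorem h71_exp_step (N k j : ℝ) (hN : 16 ≤ N) (hk0 : 0 ≤ k) (hk : k ≤ N * Real.sqrt N)
    (hj0 : 0 ≤ j) (hj : j ≤ N) :
    Real.exp ((j - N / 2) / N ^ 2 - k / (2 * N ^ 3) - 1 / N ^ 2)
      ≤ 1 + (j - N / 2) / N ^ 2 - k / (2 * N ^ 3) := by
  have hNpos : (0 : ℝ) < N := by linarith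
  have hs4 := h71_sqrt_ge N hN
  have hss : Real.sqrt N * Real.sqrt N = N := Real.mul_self_sqrt hNpos.le
  obtain ⟨s, hs⟩ : ∃ s, s = Real.sqrt N := ⟨_, rfl⟩
  rw [← hs] at hs4 hss hk
  have h1 : s + 2 ≤ N := by nlinarith
  obtain ⟨y, hy⟩ : ∃ y, y = (j - N / 2) / N ^ 2 - k / (2 * N ^ 3) - 1 / N ^ 2 := ⟨_, rfl⟩
  rw [← hy]
  have hN3 : (0 : ℝ) < N ^ 3 := by positivity
  have hyeq : y = ((j - N / 2) * N - k / 2 - N) / N ^ 3 := by
    rw [hy]
    field_simp
  have e1 : 1 / N = N ^ 2 / N ^ 3 := by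
    field_simp
  have hyu : y ≤ 1 / N := by
    rw [hyeq, e1]
    apply div_le_div_of_nonneg_right _ hN3.le
    nlinarith [mul_le_mul_of_nonneg_right hj hNpos.le]
  have hyl : -(1 / N) ≤ y := by
    rw [hyeq, e1, ← neg_div]
    apply div_le_div_of_nonneg_right _ hN3.le
    nlinarith [mul_nonneg hj0 hNpos.le, mul_nonneg hNpos.le (sub_nonneg.mpr h1), hk]
  have hN1 : 1 / N ≤ 1 := by
    rw [div_le_one hNpos]
    linarith
  have habs : |y| ≤ 1 := abs_le.mpr ⟨by linarith, by linarith⟩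
  have hexp := (abs_le.mp (Real.abs_exp_sub_one_sub_id_le habs)).2
  have hsq : y ^ 2 ≤ (1 / N) ^ 2 := sq_le_sq' hyl hyu
  have hsq' : (1 / N) ^ 2 = 1 / N ^ 2 := by
    rw [one_div, one_div, inv_pow]
  rw [hsq'] at hsq
  linarith

theorem h71_alg (N p a b j k : ℝ) (hN : N ≠ 0) (hbal : a - b = (j - N / 2) / N) :
    p * (1 + (j - N / 2) / N ^ 2 - k / (2 * N ^ 3))
      = p * (1 - b / N) + (1 / N) * (p * a - p * (k / N ^ 2) * (1 / 2)) := by
  have hX : (j - N / 2) / N ^ 2 = (a - b) / N := by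
    rw [hbal]
    field_simp
  rw [hX]
  field_simp
  ring

/-- The exponent of the comparison function. -/
noncomputable def h71_E (N : ℝ) (k : ℕ) (j : ℝ) : ℝ :=
  (k : ℝ) * (j - N / 2) / N ^ 2 - (k : ℝ) * ((k : ℝ) - 1) / (4 * N ^ 3) - (k : ℝ) / N ^ 2

theorem h71_E_zero (N j : ℝ) : h71_E N 0 j = 0 := by
  unfold h71_E
  simp

theorem h71_E_succ (N : ℝ) (hN : N ≠ 0) (k : ℕ) (j : ℝ) :
    h71_E N (k + 1) j
      = h71_E N k j + ((j - N / 2) / N ^ 2 - (k : ℝ) / (2 * N ^ 3) - 1 / N ^ 2) := by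
  unfold h71_E
  push_cast
  field_simp
  ring

theorem h71_E_pred (N : ℝ) (k : ℕ) (j : ℝ) :
    h71_E N k (j - 1) = h71_E N k j - (k : ℝ) / N ^ 2 := by
  unfold h71_E
  ring

theorem h71_E_lower (N : ℝ) (hN : 16 ≤ N) (k : ℕ) (hk : (k : ℝ) ≤ N * Real.sqrt N) (j : ℝ)
    (hj : N / 2 - Real.sqrt N ≤ j) : -(3 / 2) ≤ h71_E N k j := by
  have hNpos : (0 : ℝ) < N := by linarith
  have hs4 := h71_sqrt_ge N hN
  have hss : Real.sqrt N * Real.sqrt N = N := Real.mul_self_sqrt hNpos.le
  obtain ⟨s, hs⟩ : ∃ s, s = Real.sqrt N := ⟨_, rfl⟩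
  rw [← hs] at hs4 hss hk hj
  have hs0 : (0 : ℝ) ≤ s := by linarith
  have hk0 : (0 : ℝ) ≤ k := Nat.cast_nonneg k
  have hN3 : (0 : ℝ) < N ^ 3 := by positivity
  have heq : h71_E N k j
      = ((k : ℝ) * (j - N / 2) * N - (k : ℝ) * ((k : ℝ) - 1) / 4 - (k : ℝ) * N) / N ^ 3 := by
    unfold h71_E
    field_simp
  rw [heq, le_div_iff₀ hN3]
  have h1 : -((k : ℝ) * s) ≤ (k : ℝ) * (j - N / 2) := by
    nlinarith [mul_nonneg hk0 (by linarith : (0 : ℝ) ≤ j - N / 2 + s)]
  have h2 : (k : ℝ) * s ≤ N * N := by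
    have := mul_le_mul_of_nonneg_right hk hs0
    nlinarith
  have h3 : (k : ℝ) * k ≤ N * N * N := by
    have := mul_self_le_mul_self hk0 hk
    nlinarith
  have h4 : (k : ℝ) * N ≤ N * N * N / 4 := by
    have h4s : 4 * s ≤ N := by nlinarith
    have := mul_le_mul_of_nonneg_right hk hNpos.le
    nlinarith [mul_nonneg hNpos.le (mul_nonneg hNpos.le (sub_nonneg.mpr h4s))]
  have h5 : -(N * N * N) ≤ (k : ℝ) * (j - N / 2) * N := by
    have a := mul_le_mul_of_nonneg_right h1 hNpos.le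
    have b := mul_le_mul_of_nonneg_right h2 hNpos.le
    linarith
  nlinarith [h5, h3, h4, hk0]

theorem chain_level {Ω : Type} [Fintype Ω] [DecidableEq Ω] (q : Ω → Ω → ℝ) (f : Ω → ℝ)
    (sz : Ω → ℕ) (n : ℕ) (hn : 16 ≤ n)
    (hq0 : ∀ S S', 0 ≤ q S S') (hf : ∀ S S', q S S' ≠ 0 → f S < f S')
    (hsz : ∀ S' S, q S' S ≠ 0 → sz S' = sz S ∨ sz S' + 1 = sz S)
    (hent : ∀ S, ∑ S' ∈ univ.filter (fun S' => sz S' + 1 = sz S), q S' S ≤ 1 / 2)
    (hbal : ∀ S, ∑ S', q S' S - ∑ S', q S S' = ((sz S : ℝ) - n / 2) / n)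
    (hout : ∀ S, ∑ S', q S S' ≤ n) (hszn : ∀ S, sz S ≤ n) (x : ℝ) :
    Real.sqrt n * ∑ S ∈ univ.filter (fun S => f S = x ∧ (n : ℝ) / 2 - Real.sqrt n ≤ sz S),
      ∑ S', q S S' ≤ 10 * Fintype.card Ω := by
  have hN : (16 : ℝ) ≤ (n : ℝ) := by exact_mod_cast hn
  have hNpos : (0 : ℝ) < (n : ℝ) := by linarith
  have hNne : (n : ℝ) ≠ 0 := hNpos.ne'
  have hinv : 0 ≤ 1 / (n : ℝ) := by positivity
  have hout0 : ∀ S, 0 ≤ ∑ S', q S S' := fun S => Finset.sum_nonneg fun S' _ => hq0 S S'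
  have hb1 : ∀ S, 0 ≤ 1 - (∑ S', q S S') / (n : ℝ) := by
    intro S
    rw [sub_nonneg, div_le_one hNpos]
    exact hout S
  obtain ⟨u, hu0, hus⟩ : ∃ u : ℕ → Ω → ℝ, (∀ S, u 0 S = 1) ∧
      ∀ k S, u (k + 1) S
        = u k S * (1 - (∑ S', q S S') / n) + (1 / (n : ℝ)) * ∑ S', q S' S * u k S' :=
    ⟨fun k => Nat.rec (fun _ => 1)
      (fun _ uk S => uk S * (1 - (∑ S', q S S') / n) + (1 / (n : ℝ)) * ∑ S', q S' S * uk S') k,
      fun _ => rfl, fun _ _ => rfl⟩
  -- (a) nonnegativity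
  have hu : ∀ k S, 0 ≤ u k S := by
    intro k
    induction k with
    | zero =>
      intro S
      rw [hu0]
      exact zero_le_one
    | succ k ih =>
      intro S
      rw [hus]
      have h2 : 0 ≤ ∑ S', q S' S * u k S' :=
        Finset.sum_nonneg fun S' _ => mul_nonneg (hq0 S' S) (ih S')
      exact add_nonneg (mul_nonneg (ih S) (hb1 S)) (mul_nonneg hinv h2)
  -- (b) the comparison function
  have hb : ∀ k : ℕ, (k : ℝ) ≤ (n : ℝ) * Real.sqrt n →
      ∀ S, Real.exp (h71_E n k (sz S)) ≤ u k S := by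
    intro k
    induction k with
    | zero =>
      intro _ S
      rw [h71_E_zero, Real.exp_zero, hu0]
    | succ k ih =>
      intro hk S
      have hk' : (k : ℝ) ≤ (n : ℝ) * Real.sqrt n := by
        have : ((k + 1 : ℕ) : ℝ) = (k : ℝ) + 1 := by
          push_cast
          ring
        linarith
      have ih' := ih hk'
      obtain ⟨p, hp⟩ : ∃ p, p = Real.exp (h71_E n k (sz S)) := ⟨_, rfl⟩
      obtain ⟨t, ht⟩ : ∃ t, t = (k : ℝ) / (n : ℝ) ^ 2 := ⟨_, rfl⟩
      have hp0 : 0 < p := by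
        rw [hp]
        exact Real.exp_pos _
      have ht0 : 0 ≤ t := by
        rw [ht]
        positivity
      have hpS : p ≤ u k S := by
        rw [hp]
        exact ih' S
      have hp' : Real.exp (h71_E n k ((sz S : ℝ) - 1)) = p * Real.exp (-t) := by
        rw [h71_E_pred, hp, ht, ← Real.exp_add, sub_eq_add_neg]
      obtain ⟨D, hD⟩ : ∃ D, D = p - p * Real.exp (-t) := ⟨_, rfl⟩
      have he1 : Real.exp (-t) ≤ 1 := Real.exp_le_one_iff.mpr (by linarith)
      have he2 : 1 - t ≤ Real.exp (-t) := by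
        have := Real.add_one_le_exp (-t)
        linarith
      have hD0 : 0 ≤ D := by
        rw [hD]
        nlinarith
      have hDt : D ≤ p * t := by
        rw [hD]
        nlinarith
      have hterm : ∀ S', q S' S * p - (if sz S' + 1 = sz S then q S' S * D else 0)
          ≤ q S' S * u k S' := by
        intro S'
        by_cases hq : q S' S = 0
        · rw [hq]
          split_ifs <;> simp
        · have hle := mul_le_mul_of_nonneg_left (ih' S') (hq0 S' S)
          rcases hsz S' S hq with h | h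
          · rw [h, ← hp] at hle
            have := mul_nonneg (hq0 S' S) hD0
            split_ifs <;> linarith
          · have hcast : (sz S' : ℝ) = (sz S : ℝ) - 1 := by
              rw [← h]
              push_cast
              ring
            rw [hcast, hp'] at hle
            rw [if_pos h, hD]
            linarith
      have hsum : p * (∑ S', q S' S) - D * (1 / 2) ≤ ∑ S', q S' S * u k S' := by
        have h1 : ∑ S', (q S' S * p - (if sz S' + 1 = sz S then q S' S * D else 0))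
            ≤ ∑ S', q S' S * u k S' := Finset.sum_le_sum fun S' _ => hterm S'
        rw [Finset.sum_sub_distrib, ← Finset.sum_mul, ← Finset.sum_filter,
          ← Finset.sum_mul] at h1
        have h3 := mul_le_mul_of_nonneg_right (hent S) hD0
        linarith
      have hstep := h71_exp_step (n : ℝ) (k : ℝ) (sz S : ℝ) hN (Nat.cast_nonneg k) hk'
        (Nat.cast_nonneg _) (by exact_mod_cast hszn S)
      rw [hus, h71_E_succ _ hNne, Real.exp_add, ← hp]
      calc p * Real.exp (((sz S : ℝ) - n / 2) / (n : ℝ) ^ 2 - (k : ℝ) / (2 * (n : ℝ) ^ 3)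
              - 1 / (n : ℝ) ^ 2)
          ≤ p * (1 + ((sz S : ℝ) - n / 2) / (n : ℝ) ^ 2 - (k : ℝ) / (2 * (n : ℝ) ^ 3)) :=
            mul_le_mul_of_nonneg_left hstep hp0.le
        _ = p * (1 - (∑ S', q S S') / n) + (1 / (n : ℝ))
              * (p * (∑ S', q S' S) - p * ((k : ℝ) / (n : ℝ) ^ 2) * (1 / 2)) :=
            h71_alg n p _ _ _ k hNne (hbal S)
        _ ≤ u k S * (1 - (∑ S', q S S') / n) + (1 / (n : ℝ)) * ∑ S', q S' S * u k S' := by
            have h1 := mul_le_mul_of_nonneg_right hpS (hb1 S)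
            have h2 : p * (∑ S', q S' S) - p * ((k : ℝ) / (n : ℝ) ^ 2) * (1 / 2)
                ≤ ∑ S', q S' S * u k S' := by
              rw [← ht]
              linarith [hsum, hDt]
            have h3 := mul_le_mul_of_nonneg_left h2 hinv
            linarith
  -- (c) the mass of `{f ≤ x}` drops by the out-flow of the level `{f = x}`
  have hm : ∀ k, ∑ S ∈ univ.filter (fun S => f S ≤ x), u (k + 1) S
      ≤ ∑ S ∈ univ.filter (fun S => f S ≤ x), u k S
        - (1 / (n : ℝ)) * ∑ S ∈ univ.filter (fun S => f S = x), u k S * ∑ S', q S S' := by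
    intro k
    have hin : ∑ S ∈ univ.filter (fun S => f S ≤ x), ∑ S', q S' S * u k S'
        ≤ ∑ S' ∈ univ.filter (fun S' => f S' < x), u k S' * ∑ S, q S' S := by
      rw [Finset.sum_comm, Finset.sum_filter]
      refine Finset.sum_le_sum fun S' _ => ?_
      split_ifs with hlt
      · rw [Finset.mul_sum]
        calc ∑ S ∈ univ.filter (fun S => f S ≤ x), q S' S * u k S'
            ≤ ∑ S, q S' S * u k S' :=
              Finset.sum_le_univ_sum_of_nonneg fun S => mul_nonneg (hq0 S' S) (hu k S')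
          _ = ∑ S, u k S' * q S' S := Finset.sum_congr rfl fun S _ => mul_comm _ _
      · apply le_of_eq
        refine Finset.sum_eq_zero fun S hS => ?_
        have hSx : f S ≤ x := (Finset.mem_filter.mp hS).2
        have hq : q S' S = 0 := by
          by_contra hq
          exact hlt (lt_of_lt_of_le (hf S' S hq) hSx)
        rw [hq, zero_mul]
    have hsplit : ∑ S ∈ univ.filter (fun S => f S ≤ x), u k S * ∑ S', q S S'
        = ∑ S ∈ univ.filter (fun S => f S < x), u k S * ∑ S', q S S'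
          + ∑ S ∈ univ.filter (fun S => f S = x), u k S * ∑ S', q S S' := by
      rw [Finset.sum_filter, Finset.sum_filter, Finset.sum_filter, ← Finset.sum_add_distrib]
      refine Finset.sum_congr rfl fun S _ => ?_
      rcases lt_trichotomy (f S) x with h | h | h
      · rw [if_pos h.le, if_pos h, if_neg h.ne, add_zero]
      · rw [if_pos h.le, if_neg (by rw [h]; exact lt_irrefl x), if_pos h, zero_add]
      · rw [if_neg (not_le.mpr h), if_neg (not_lt.mpr h.le), if_neg h.ne', add_zero]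
    have hexp : ∑ S ∈ univ.filter (fun S => f S ≤ x), u (k + 1) S
        = ∑ S ∈ univ.filter (fun S => f S ≤ x), u k S
          - (1 / (n : ℝ)) * ∑ S ∈ univ.filter (fun S => f S ≤ x), u k S * ∑ S', q S S'
          + (1 / (n : ℝ)) * ∑ S ∈ univ.filter (fun S => f S ≤ x), ∑ S', q S' S * u k S' := by
      rw [Finset.mul_sum, Finset.mul_sum, ← Finset.sum_sub_distrib, ← Finset.sum_add_distrib]
      refine Finset.sum_congr rfl fun S _ => ?_
      rw [hus]
      ring
    rw [hexp, hsplit]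
    have := mul_le_mul_of_nonneg_left hin hinv
    linarith
  -- (d) telescoping
  have htel : ∀ K : ℕ, ∑ S ∈ univ.filter (fun S => f S ≤ x), u K S
      + (1 / (n : ℝ)) * ∑ k ∈ Finset.range K,
          ∑ S ∈ univ.filter (fun S => f S = x), u k S * ∑ S', q S S'
      ≤ ∑ S ∈ univ.filter (fun S => f S ≤ x), u 0 S := by
    intro K
    induction K with
    | zero => simp
    | succ K ih =>
      rw [Finset.sum_range_succ, mul_add]
      have := hm K
      linarith
  have hm0 : ∑ S ∈ univ.filter (fun S => f S ≤ x), u 0 S ≤ (Fintype.card Ω : ℝ) := by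
    calc ∑ S ∈ univ.filter (fun S => f S ≤ x), u 0 S
        = ∑ S ∈ univ.filter (fun S => f S ≤ x), (1 : ℝ) :=
          Finset.sum_congr rfl fun S _ => hu0 S
      _ = ((univ.filter (fun S => f S ≤ x)).card : ℝ) := by
          rw [Finset.sum_const, nsmul_eq_mul, mul_one]
      _ ≤ (Fintype.card Ω : ℝ) := by
          exact_mod_cast Finset.card_le_univ _
  obtain ⟨K, hK⟩ : ∃ K : ℕ, K = ⌊(n : ℝ) * Real.sqrt n⌋₊ := ⟨_, rfl⟩
  obtain ⟨Sg, hSg⟩ : ∃ Sg : ℝ, Sg = ∑ S ∈ univ.filter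
      (fun S => f S = x ∧ (n : ℝ) / 2 - Real.sqrt n ≤ sz S), ∑ S', q S S' := ⟨_, rfl⟩
  rw [← hSg]
  have hSg0 : 0 ≤ Sg := by
    rw [hSg]
    exact Finset.sum_nonneg fun S _ => hout0 S
  have hs4 := h71_sqrt_ge n hN
  have hNs0 : 0 ≤ (n : ℝ) * Real.sqrt n := by positivity
  have hKle : (K : ℝ) ≤ (n : ℝ) * Real.sqrt n := by
    rw [hK]
    exact Nat.floor_le hNs0
  have hlow : ∀ k ∈ Finset.range K, (1 / 5) * Sg
      ≤ ∑ S ∈ univ.filter (fun S => f S = x), u k S * ∑ S', q S S' := by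
    intro k hk
    have hkK : (k : ℝ) ≤ (n : ℝ) * Real.sqrt n := by
      have : (k : ℝ) ≤ (K : ℝ) := by exact_mod_cast (Finset.mem_range.mp hk).le
      linarith
    calc (1 / 5) * Sg
        = ∑ S ∈ univ.filter (fun S => f S = x ∧ (n : ℝ) / 2 - Real.sqrt n ≤ sz S),
            (1 / 5) * ∑ S', q S S' := by
          rw [hSg, Finset.mul_sum]
      _ ≤ ∑ S ∈ univ.filter (fun S => f S = x ∧ (n : ℝ) / 2 - Real.sqrt n ≤ sz S),
            u k S * ∑ S', q S S' := by
          refine Finset.sum_le_sum fun S hS => ?_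
          have hS2 := (Finset.mem_filter.mp hS).2.2
          have h1 : (1 : ℝ) / 5 ≤ u k S :=
            le_trans h71_exp_const (le_trans
              (Real.exp_le_exp.mpr (h71_E_lower n hN k hkK _ hS2)) (hb k hkK S))
          exact mul_le_mul_of_nonneg_right h1 (hout0 S)
      _ ≤ ∑ S ∈ univ.filter (fun S => f S = x), u k S * ∑ S', q S S' := by
          apply Finset.sum_le_sum_of_subset_of_nonneg
          · intro S hS
            exact Finset.mem_filter.mpr ⟨Finset.mem_univ _, (Finset.mem_filter.mp hS).2.1⟩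
          · intro S _ _
            exact mul_nonneg (hu k S) (hout0 S)
  have hsumK : (K : ℝ) * ((1 / 5) * Sg) ≤ ∑ k ∈ Finset.range K,
      ∑ S ∈ univ.filter (fun S => f S = x), u k S * ∑ S', q S S' := by
    have := Finset.sum_le_sum hlow
    rw [Finset.sum_const, Finset.card_range, nsmul_eq_mul] at this
    exact this
  have hmK : 0 ≤ ∑ S ∈ univ.filter (fun S => f S ≤ x), u K S :=
    Finset.sum_nonneg fun S _ => hu K S
  have hfin : (1 / (n : ℝ)) * ((K : ℝ) * ((1 / 5) * Sg)) ≤ (Fintype.card Ω : ℝ) := by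
    have h1 := htel K
    have h2 := mul_le_mul_of_nonneg_left hsumK hinv
    linarith
  have hKge : (n : ℝ) * Real.sqrt n / 2 ≤ (K : ℝ) := by
    have h1 : (n : ℝ) * Real.sqrt n < (K : ℝ) + 1 := by
      rw [hK]
      exact Nat.lt_floor_add_one _
    have h2 : (2 : ℝ) ≤ (n : ℝ) * Real.sqrt n := by nlinarith
    linarith
  have h3 : (1 / (n : ℝ)) * (((n : ℝ) * Real.sqrt n / 2) * ((1 / 5) * Sg))
      ≤ (1 / (n : ℝ)) * ((K : ℝ) * ((1 / 5) * Sg)) := by
    apply mul_le_mul_of_nonneg_left _ hinv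
    exact mul_le_mul_of_nonneg_right hKge (by positivity)
  have h4 : (1 / (n : ℝ)) * (((n : ℝ) * Real.sqrt n / 2) * ((1 / 5) * Sg))
      = Real.sqrt n * Sg / 10 := by
    field_simp
    ring
  linarith

end Vale.Agent.Lib.P160.H71
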