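import Mathlib
import Vale.Agent.Lib.P160.RV.Defs

/-!
# P160, rare-values theorem: the kill lemma (backup copy of pool job 296)

`v : Fin n → ℝ` takes `m` distinct values, fewer than `m / 4` of them on fewer than `8`
coordinates.  Then `6 m ≤ n`, and after deleting any set `I` of fewer than `m` coordinates the
remaining coordinates still carry at least `m / 4` distinct nonzero absolute values.

`dabs` is unfolded by `rfl` only.
-/

namespace Vale.Agent.Lib.P160.H71

open Finset
open Vale.Agent.Lib.P160

theorem six_mul_le {n m : ℕ} (v : Fin n → ℝ) (hm : (univ.image v).card = m)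
    (hr : 4 * ((univ.image v).filter fun y => (univ.filter fun j => v j = y).card < 8).card < m) :
    6 * m ≤ n := by
  have hn : (univ : Finset (Fin n)).card
      = ∑ y ∈ univ.image v, (univ.filter fun j => v j = y).card :=
    Finset.card_eq_sum_card_image v univ
  have hsplit := Finset.card_filter_add_card_filter_not (s := univ.image v)
    (fun y => (univ.filter fun j => v j = y).card < 8)
  have hge : 8 * ((univ.image v).filter fun y => ¬ (univ.filter fun j => v j = y).card < 8).card
      ≤ ∑ y ∈ univ.image v, (univ.filter fun j => v j = y).card := by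
    calc 8 * ((univ.image v).filter fun y => ¬ (univ.filter fun j => v j = y).card < 8).card
        = ∑ y ∈ (univ.image v).filter
            (fun y => ¬ (univ.filter fun j => v j = y).card < 8), 8 := by
          rw [Finset.sum_const, smul_eq_mul, mul_comm]
      _ ≤ ∑ y ∈ (univ.image v).filter (fun y => ¬ (univ.filter fun j => v j = y).card < 8),
            (univ.filter fun j => v j = y).card := by
          refine Finset.sum_le_sum fun y hy => ?_
          have := (Finset.mem_filter.mp hy).2
          omega
      _ ≤ ∑ y ∈ univ.image v, (univ.filter fun j => v j = y).card :=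
          Finset.sum_le_sum_of_subset (Finset.filter_subset _ _)
  rw [Finset.card_univ, Fintype.card_fin] at hn
  omega

theorem kill_lemma {n m : ℕ} (v : Fin n → ℝ) (I : Finset (Fin n))
    (hm : (univ.image v).card = m)
    (hr : 4 * ((univ.image v).filter fun y => (univ.filter fun j => v j = y).card < 8).card < m)
    (hI : I.card < m) (h5 : 5 ≤ m) :
    m / 4 ≤ dabs (fun j : {k // k ∈ (univ : Finset (Fin n)) \ I} => v j.1) := by
  have hd : dabs (fun j : {k // k ∈ (univ : Finset (Fin n)) \ I} => v j.1)
      = ((univ.filter fun j : {k // k ∈ (univ : Finset (Fin n)) \ I} => v j.1 ≠ 0).image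
          fun j => |v j.1|).card := rfl
  rw [hd]
  set W := ((univ.filter fun j : {k // k ∈ (univ : Finset (Fin n)) \ I} => v j.1 ≠ 0).image
          fun j => |v j.1|) with hW
  set V := univ.image v with hV
  set surv := ((univ : Finset (Fin n)) \ I).image v with hsurv
  -- the survivors inject, two-to-one and up to the value zero, into `W`
  have h1 : surv.card ≤ 2 * W.card + 1 := by
    have ha : (surv.erase 0).card ≤ 2 * ((surv.erase 0).image fun y : ℝ => |y|).card := by
      refine Finset.card_le_mul_card_image _ 2 fun a _ => ?_
      have hsub : (surv.erase 0).filter (fun x => |x| = a) ⊆ {a, -a} := by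
        intro x hx
        have hxa := (Finset.mem_filter.mp hx).2
        rw [Finset.mem_insert, Finset.mem_singleton]
        rcases abs_choice x with h | h
        · left
          rw [← hxa, h]
        · right
          rw [← hxa, h, neg_neg]
      exact (Finset.card_le_card hsub).trans Finset.card_le_two
    have hb : ((surv.erase 0).image fun y : ℝ => |y|) ⊆ W := by
      intro a ha'
      obtain ⟨y, hy, rfl⟩ := Finset.mem_image.mp ha'
      obtain ⟨hy0, hys⟩ := Finset.mem_erase.mp hy
      obtain ⟨j, hj, rfl⟩ := Finset.mem_image.mp hys
      exact Finset.mem_image.mpr ⟨⟨j, hj⟩, Finset.mem_filter.mpr ⟨Finset.mem_univ _, hy0⟩, rfl⟩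
    have hc : surv.card - 1 ≤ (surv.erase 0).card := Finset.pred_card_le_card_erase
    have := Finset.card_le_card hb
    omega
  have hsV : surv ⊆ V := Finset.image_subset_image Finset.sdiff_subset
  have hcard : (V \ surv).card + surv.card = V.card := Finset.card_sdiff_add_card_eq_card hsV
  set K := (V \ surv).filter (fun y => ¬ (univ.filter fun j => v j = y).card < 8) with hK
  have hns : ((V \ surv).filter fun y => (univ.filter fun j => v j = y).card < 8).card + K.card
      = (V \ surv).card :=
    Finset.card_filter_add_card_filter_not _
  have hrare : ((V \ surv).filter fun y => (univ.filter fun j => v j = y).card < 8).card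
      ≤ (V.filter fun y => (univ.filter fun j => v j = y).card < 8).card :=
    Finset.card_le_card (Finset.filter_subset_filter _ Finset.sdiff_subset)
  have hK8 : 8 * K.card ≤ I.card := by
    have hfib : ∀ y ∈ K, (univ.filter fun j => v j = y)
        ⊆ (I.filter fun a => v a ∈ K).filter (fun a => v a = y) := by
      intro y hy j hj
      have hvj : v j = y := (Finset.mem_filter.mp hj).2
      have hyK := hy
      rw [hK, Finset.mem_filter, Finset.mem_sdiff] at hy
      have hjI : j ∈ I := by
        by_contra hjI
        exact hy.1.2 (Finset.mem_image.mpr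
          ⟨j, Finset.mem_sdiff.mpr ⟨Finset.mem_univ _, hjI⟩, hvj⟩)
      have hvK : v j ∈ K := by
        rw [hvj]
        exact hyK
      exact Finset.mem_filter.mpr ⟨Finset.mem_filter.mpr ⟨hjI, hvK⟩, hvj⟩
    have hsum : (I.filter fun a => v a ∈ K).card
        = ∑ y ∈ K, ((I.filter fun a => v a ∈ K).filter fun a => v a = y).card :=
      Finset.card_eq_sum_card_fiberwise (fun a ha => (Finset.mem_filter.mp ha).2)
    have h8 : ∑ _y ∈ K, 8
        ≤ ∑ y ∈ K, ((I.filter fun a => v a ∈ K).filter fun a => v a = y).card := by
      refine Finset.sum_le_sum fun y hy => ?_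
      have hy' := (Finset.mem_filter.mp hy).2
      have := Finset.card_le_card (hfib y hy)
      omega
    rw [Finset.sum_const, smul_eq_mul] at h8
    have := Finset.card_le_card (Finset.filter_subset (fun a => v a ∈ K) I)
    omega
  omega

end Vale.Agent.Lib.P160.H71
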