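import Vale.Agent.Lib.P160.Closed

/-!
# P160, job F: the numeric lemma of the level-set theorem

Both summands are at most `(1 / 4) ^ n`: the second because `choose (z / 2 + 1) 2 ≥ 4 n`,
the first by `Qr_mul_pow_le` with `D = 2 ^ j`, `j = ⌊logb 2 n / 4⌋`.
-/

namespace Vale.Agent.Lib.P160

open Finset

/-- `y ≤ 2 ^ y` for positive real `y`. -/
theorem h71_le_two_rpow {y : ℝ} (hy : 0 < y) : y ≤ (2 : ℝ) ^ y := by
  have h1 : y < (⌊y⌋₊ : ℝ) + 1 := Nat.lt_floor_add_one y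
  have h2 : ((⌊y⌋₊ : ℝ) + 1) ≤ (2 : ℝ) ^ ⌊y⌋₊ := by
    have h := Nat.lt_two_pow_self (n := ⌊y⌋₊)
    have h' : ⌊y⌋₊ + 1 ≤ 2 ^ ⌊y⌋₊ := h
    exact_mod_cast h'
  have h3 : (2 : ℝ) ^ (⌊y⌋₊ : ℝ) ≤ (2 : ℝ) ^ y :=
    Real.rpow_le_rpow_of_exponent_le (by norm_num) (Nat.floor_le hy.le)
  rw [Real.rpow_natCast] at h3
  linarith

/-- `logb 2 y ≤ y` for positive real `y`. -/
theorem h71_logb_two_le {y : ℝ} (hy : 0 < y) : Real.logb 2 y ≤ y :=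
  (Real.logb_le_iff_le_rpow (by norm_num) hy).mpr (h71_le_two_rpow hy)

/-- `(logb 2 n) ^ 2 ≤ 4 n` for a natural number `n ≥ 1`. -/
theorem h71_logb_sq_le {n : ℕ} (hn : 1 ≤ n) : Real.logb 2 n ^ 2 ≤ 4 * (n : ℝ) := by
  have hn0 : (0 : ℝ) < n := by exact_mod_cast hn
  have hs : 0 < Real.sqrt (n : ℝ) := Real.sqrt_pos.mpr hn0
  have h1 : Real.logb 2 (Real.sqrt (n : ℝ)) = Real.logb 2 n / 2 := by
    unfold Real.logb
    rw [Real.log_sqrt hn0.le]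
    ring
  have h2 : Real.logb 2 n / 2 ≤ Real.sqrt (n : ℝ) := by
    rw [← h1]
    exact h71_logb_two_le hs
  have h3 : 0 ≤ Real.logb 2 n := Real.logb_nonneg (by norm_num) (by exact_mod_cast hn)
  have h4 : Real.sqrt (n : ℝ) ^ 2 = n := Real.sq_sqrt hn0.le
  nlinarith

/-- `Lr s ^ 2 * s ≤ 1`. -/
theorem h71_Lr_sq_mul_le (s : ℕ) : Lr s ^ 2 * (s : ℝ) ≤ 1 := by
  have h1 : Lr s ≤ Lr (2 * (s / 2)) := Lr_antitone (by omega)
  have h2 : (s : ℝ) ≤ 2 * ((s / 2 : ℕ) : ℝ) + 1 := by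
    have h : s ≤ 2 * (s / 2) + 1 := by omega
    exact_mod_cast h
  have h3 := Lr_even_sq (s / 2)
  have h4 : Lr s ^ 2 ≤ Lr (2 * (s / 2)) ^ 2 := pow_le_pow_left₀ (Lr_pos s).le h1 2
  have h5 : (0 : ℝ) ≤ (s : ℝ) := Nat.cast_nonneg s
  have h6 : (0 : ℝ) ≤ Lr (2 * (s / 2)) ^ 2 := by positivity
  calc Lr s ^ 2 * (s : ℝ) ≤ Lr (2 * (s / 2)) ^ 2 * (s : ℝ) :=
        mul_le_mul_of_nonneg_right h4 h5
    _ ≤ Lr (2 * (s / 2)) ^ 2 * (2 * ((s / 2 : ℕ) : ℝ) + 1) :=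
        mul_le_mul_of_nonneg_left h2 h6
    _ ≤ 1 := h3

theorem h71_quarter_le (n : ℕ) : (1 / 4 : ℝ) ^ n ≤ (243 / 512) ^ n :=
  pow_le_pow_left₀ (by norm_num) (by norm_num) n

theorem level_num : ∃ C : ℝ, ∀ (ε : ℝ) (n z : ℕ), 40 ≤ ε * Real.logb 2 (n : ℝ) →
    ε * (n : ℝ) ≤ (z : ℝ) → z ≤ n →
    (4 : ℝ) ^ n * Qr (z - z / 2) + (4 : ℝ) ^ n / 2 ^ (Nat.choose (z / 2 + 1) 2) ≤
      C * (243 / 512) ^ n := by
  refine ⟨2, ?_⟩
  intro ε n z h40 hεz hzn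
  -- basic facts
  have hn2 : 2 ≤ n := by
    by_contra hcon
    have hn' : n = 0 ∨ n = 1 := by omega
    rcases hn' with rfl | rfl
    · norm_num at h40
    · norm_num at h40
  have hn1 : 1 ≤ n := by omega
  have hn0 : (0 : ℝ) < n := by exact_mod_cast hn1
  have hn1' : (1 : ℝ) < n := by exact_mod_cast hn2
  have hLsq : Real.logb 2 (n : ℝ) ^ 2 ≤ 4 * (n : ℝ) := h71_logb_sq_le hn1
  have h2L : (2 : ℝ) ^ Real.logb 2 (n : ℝ) = n :=
    Real.rpow_logb (by norm_num) (by norm_num) hn0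
  have hL0 : 0 < Real.logb 2 (n : ℝ) := Real.logb_pos (by norm_num) hn1'
  generalize Real.logb 2 (n : ℝ) = L at *
  have hε0 : 0 < ε := by
    by_contra hcon
    have : ε * L ≤ 0 := mul_nonpos_of_nonpos_of_nonneg (not_lt.mp hcon) hL0.le
    linarith
  have hz0 : (0 : ℝ) ≤ z := Nat.cast_nonneg z
  have hzn' : (z : ℝ) ≤ n := by exact_mod_cast hzn
  have hε1 : ε ≤ 1 := by
    have h : ε * (n : ℝ) ≤ 1 * (n : ℝ) := by linarith
    exact le_of_mul_le_mul_right h hn0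
  have hL40 : 40 ≤ L := by nlinarith
  have hzL : 40 * (n : ℝ) ≤ (z : ℝ) * L := by
    have h1 : 40 * (n : ℝ) ≤ ε * L * n := mul_le_mul_of_nonneg_right h40 hn0.le
    have h2 : ε * (n : ℝ) * L ≤ (z : ℝ) * L := mul_le_mul_of_nonneg_right hεz hL0.le
    linarith
  -- square root
  have hS0 : 0 < Real.sqrt (n : ℝ) := Real.sqrt_pos.mpr hn0
  have hS2 : Real.sqrt (n : ℝ) ^ 2 = n := Real.sq_sqrt hn0.le
  generalize Real.sqrt (n : ℝ) = S at *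
  have hLS : L ≤ 2 * S := by
    by_contra hcon
    have hc : 2 * S < L := not_le.mp hcon
    nlinarith [mul_pos (sub_pos.mpr hc) (by positivity : 0 < L + 2 * S)]
  -- z ^ 2 ≥ 400 n
  have hzS : 20 * (n : ℝ) ≤ (z : ℝ) * S := by nlinarith
  have hz2 : 400 * (n : ℝ) ≤ (z : ℝ) ^ 2 := by
    have h1 : (20 * (n : ℝ)) ^ 2 ≤ ((z : ℝ) * S) ^ 2 :=
      pow_le_pow_left₀ (by positivity) hzS 2
    have h2 : ((z : ℝ) * S) ^ 2 = (z : ℝ) ^ 2 * n := by rw [mul_pow, hS2]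
    have h3 : (n : ℝ) * (400 * (n : ℝ)) ≤ (n : ℝ) * (z : ℝ) ^ 2 := by nlinarith
    exact le_of_mul_le_mul_left h3 hn0
  have h16 : (2 : ℝ) ^ (4 * n) = 16 ^ n := by rw [pow_mul]; norm_num
  -- the second summand
  have hsecond : (4 : ℝ) ^ n / 2 ^ (Nat.choose (z / 2 + 1) 2) ≤ (243 / 512) ^ n := by
    have hz2' : 400 * n ≤ z * z := by
      have h : ((400 * n : ℕ) : ℝ) ≤ ((z * z : ℕ) : ℝ) := by
        push_cast
        nlinarith
      exact_mod_cast h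
    have hk : z ≤ 2 * (z / 2) + 1 := by omega
    have hkk : 100 * n ≤ (z / 2) * (z / 2 + 1) := by
      have h1 : z * z ≤ (2 * (z / 2) + 1) * (2 * (z / 2) + 1) := Nat.mul_le_mul hk hk
      have h2 : (2 * (z / 2) + 1) * (2 * (z / 2) + 1) = 4 * ((z / 2) * (z / 2 + 1)) + 1 := by
        ring
      omega
    have hch : 4 * n ≤ Nat.choose (z / 2 + 1) 2 := by
      rw [Nat.choose_two_right, Nat.le_div_iff_mul_le (by norm_num)]
      simp only [Nat.add_sub_cancel]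
      nlinarith
    have h2c : (2 : ℝ) ^ (4 * n) ≤ 2 ^ (Nat.choose (z / 2 + 1) 2) :=
      pow_le_pow_right₀ (by norm_num) hch
    calc (4 : ℝ) ^ n / 2 ^ (Nat.choose (z / 2 + 1) 2) ≤ 4 ^ n / 2 ^ (4 * n) :=
          div_le_div_of_nonneg_left (by positivity) (by positivity) h2c
      _ = (1 / 4) ^ n := by rw [h16, ← div_pow]; norm_num
      _ ≤ (243 / 512) ^ n := h71_quarter_le n
  -- the first summand
  have hfirst : (4 : ℝ) ^ n * Qr (z - z / 2) ≤ (243 / 512) ^ n := by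
    have htz : z ≤ 2 * (z - z / 2) := by omega
    generalize z - z / 2 = t at htz ⊢
    have htz' : (z : ℝ) ≤ 2 * (t : ℝ) := by exact_mod_cast htz
    have hj1 : ((⌊L / 4⌋₊ : ℕ) : ℝ) ≤ L / 4 := Nat.floor_le (by positivity)
    have hj2 : L / 4 < ((⌊L / 4⌋₊ : ℕ) : ℝ) + 1 := Nat.lt_floor_add_one _
    generalize ⌊L / 4⌋₊ = j at hj1 hj2
    have hj0 : (0 : ℝ) ≤ j := Nat.cast_nonneg j
    -- 4 ^ j ≤ S
    have h4j : (4 : ℝ) ^ j ≤ S := by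
      have e1 : ((4 : ℝ) ^ j) ^ 2 = (2 : ℝ) ^ (4 * j) := by
        rw [← pow_mul, show (4 : ℝ) = 2 ^ 2 by norm_num, ← pow_mul]
        congr 1
        ring
      have e2 : (2 : ℝ) ^ (4 * j) = (2 : ℝ) ^ (((4 * j : ℕ)) : ℝ) := by
        rw [Real.rpow_natCast]
      have e3 : (2 : ℝ) ^ (((4 * j : ℕ)) : ℝ) ≤ (2 : ℝ) ^ L := by
        apply Real.rpow_le_rpow_of_exponent_le (by norm_num)
        push_cast
        linarith
      have h5 : ((4 : ℝ) ^ j) ^ 2 ≤ S ^ 2 := by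
        rw [e1, e2, hS2, ← h2L]
        exact e3
      exact (pow_le_pow_iff_left₀ (by positivity) hS0.le (by norm_num)).mp h5
    -- Lr m * 2 ^ j ≤ 1 for m ≥ 4 ^ j
    have hLr : ∀ m, 4 ^ j ≤ m → Lr m * (2 : ℝ) ^ j ≤ 1 := by
      intro m hm
      have hm' : (4 : ℝ) ^ j ≤ m := by exact_mod_cast hm
      have h1 := h71_Lr_sq_mul_le m
      have h2 : (Lr m * (2 : ℝ) ^ j) ^ 2 ≤ 1 := by
        have e : (Lr m * (2 : ℝ) ^ j) ^ 2 = Lr m ^ 2 * (4 : ℝ) ^ j := by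
          rw [mul_pow, ← pow_mul, mul_comm j 2, pow_mul]
          norm_num
        rw [e]
        calc Lr m ^ 2 * (4 : ℝ) ^ j ≤ Lr m ^ 2 * (m : ℝ) :=
              mul_le_mul_of_nonneg_left hm' (by positivity)
          _ ≤ 1 := h1
      have h3 : 0 ≤ Lr m * (2 : ℝ) ^ j := mul_nonneg (Lr_pos m).le (by positivity)
      nlinarith
    have hD : (1 : ℝ) ≤ (2 : ℝ) ^ j := one_le_pow₀ (by norm_num)
    have hQ := Qr_mul_pow_le hD hLr t
    rw [← pow_mul, ← pow_mul] at hQ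
    -- the key inequality between natural numbers
    have hkey : j * 4 ^ j + 4 * n ≤ j * t := by
      have h1 : (j : ℝ) * (4 : ℝ) ^ j ≤ (n : ℝ) / 2 := by
        have hjS : (j : ℝ) ≤ S / 2 := by linarith
        calc (j : ℝ) * (4 : ℝ) ^ j ≤ (S / 2) * S :=
              mul_le_mul hjS h4j (by positivity) (by positivity)
          _ = (n : ℝ) / 2 := by rw [← hS2]; ring
      have h2 : 9 / 2 * (n : ℝ) ≤ (j : ℝ) * (t : ℝ) := by
        have h3 : (L / 4 - 1) * ((z : ℝ) / 2) ≤ (j : ℝ) * (t : ℝ) :=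
          mul_le_mul (by linarith) (by linarith) (by positivity) hj0
        nlinarith
      have h : ((j * 4 ^ j + 4 * n : ℕ) : ℝ) ≤ ((j * t : ℕ) : ℝ) := by
        push_cast
        linarith
      exact_mod_cast h
    have hp : (2 : ℝ) ^ (j * 4 ^ j + 4 * n) ≤ (2 : ℝ) ^ (j * t) :=
      pow_le_pow_right₀ (by norm_num) hkey
    have hQ0 := Qr_pos t
    have h5 : Qr t * (2 : ℝ) ^ (j * 4 ^ j + 4 * n) ≤ (2 : ℝ) ^ (j * 4 ^ j) :=
      (mul_le_mul_of_nonneg_left hp hQ0.le).trans hQ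
    have h6 : Qr t * (16 : ℝ) ^ n ≤ 1 := by
      rw [pow_add, h16] at h5
      have hpos : (0 : ℝ) < (2 : ℝ) ^ (j * 4 ^ j) := by positivity
      have h7 : (2 : ℝ) ^ (j * 4 ^ j) * (Qr t * (16 : ℝ) ^ n) ≤ (2 : ℝ) ^ (j * 4 ^ j) * 1 := by
        rw [mul_one]
        calc (2 : ℝ) ^ (j * 4 ^ j) * (Qr t * (16 : ℝ) ^ n)
            = Qr t * ((2 : ℝ) ^ (j * 4 ^ j) * (16 : ℝ) ^ n) := by ring
          _ ≤ (2 : ℝ) ^ (j * 4 ^ j) := h5
      exact le_of_mul_le_mul_left h7 hpos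
    have e4 : (4 : ℝ) ^ n = (1 / 4) ^ n * 16 ^ n := by
      rw [← mul_pow]; norm_num
    calc (4 : ℝ) ^ n * Qr t = (1 / 4) ^ n * (Qr t * 16 ^ n) := by rw [e4]; ring
      _ ≤ (1 / 4) ^ n * 1 := mul_le_mul_of_nonneg_left h6 (by positivity)
      _ = (1 / 4) ^ n := mul_one _
      _ ≤ (243 / 512) ^ n := h71_quarter_le n
  linarith

end Vale.Agent.Lib.P160
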