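import Vale.Agent.Lib.P160.Closed

/-!
# P160, job H: the numeric lemma of the few-values theorem

`Qr k ^ 2 * k ! ≤ 1`, hence `Qr k ^ 2 * k ^ k ≤ 4 ^ k`; with `k = s - m ≥ n / 4`,
`d = n - k`, `d * logb 2 n ≤ 41 n` and `m ^ 2 ≤ n / 2 ^ 60` the square of the left side is
at most `(1 / 2 ^ 13) ^ n`.

Self-contained over `Closed` (the four `h71v_` lemmas are copies of the `h71_` ones in
`helper71/LevelNum.lean`, renamed so that this file can be imported next to any `LevelNum`).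
-/

namespace Vale.Agent.Lib.P160

open Finset

/-- `y ≤ 2 ^ y` for positive real `y`. -/
theorem h71v_le_two_rpow {y : ℝ} (hy : 0 < y) : y ≤ (2 : ℝ) ^ y := by
  have h1 : y < (⌊y⌋₊ : ℝ) + 1 := Nat.lt_floor_add_one y
  have h2 : ((⌊y⌋₊ : ℝ) + 1) ≤ (2 : ℝ) ^ ⌊y⌋₊ := by
    have h := Nat.lt_two_pow_self (n := ⌊y⌋₊)
    have h' : ⌊y⌋₊ + 1 ≤ 2 ^ ⌊y⌋₊ := h
    exact_mod_cast h'
  have h3 : (2 : ℝ) ^ (⌊y⌋₊ : ℝ) ≤ (2 : ℝ) ^ y :=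
    Real.rpow_le_rpow_of_exponent_le (by norm_num) (Nat.floor_le hy.le)
  rw [Real.rpow_natCast] at h3
  linarith

/-- `logb 2 y ≤ y` for positive real `y`. -/
theorem h71v_logb_two_le {y : ℝ} (hy : 0 < y) : Real.logb 2 y ≤ y :=
  (Real.logb_le_iff_le_rpow (by norm_num) hy).mpr (h71v_le_two_rpow hy)

/-- `(logb 2 n) ^ 2 ≤ 4 n` for a natural number `n ≥ 1`. -/
theorem h71v_logb_sq_le {n : ℕ} (hn : 1 ≤ n) : Real.logb 2 n ^ 2 ≤ 4 * (n : ℝ) := by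
  have hn0 : (0 : ℝ) < n := by exact_mod_cast hn
  have hs : 0 < Real.sqrt (n : ℝ) := Real.sqrt_pos.mpr hn0
  have h1 : Real.logb 2 (Real.sqrt (n : ℝ)) = Real.logb 2 n / 2 := by
    unfold Real.logb
    rw [Real.log_sqrt hn0.le]
    ring
  have h2 : Real.logb 2 n / 2 ≤ Real.sqrt (n : ℝ) := by
    rw [← h1]
    exact h71v_logb_two_le hs
  have h3 : 0 ≤ Real.logb 2 n := Real.logb_nonneg (by norm_num) (by exact_mod_cast hn)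
  have h4 : Real.sqrt (n : ℝ) ^ 2 = n := Real.sq_sqrt hn0.le
  nlinarith

/-- `Lr s ^ 2 * s ≤ 1`. -/
theorem h71v_Lr_sq_mul_le (s : ℕ) : Lr s ^ 2 * (s : ℝ) ≤ 1 := by
  have h1 : Lr s ≤ Lr (2 * (s / 2)) := Lr_antitone (by omega)
  have h2 : (s : ℝ) ≤ 2 * ((s / 2 : ℕ) : ℝ) + 1 := by
    have h : s ≤ 2 * (s / 2) + 1 := by omega
    exact_mod_cast h
  have h3 := Lr_even_sq (s / 2)
  have h4 : Lr s ^ 2 ≤ Lr (2 * (s / 2)) ^ 2 := pow_le_pow_left₀ (Lr_pos s).le h1 2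
  have h5 : (0 : ℝ) ≤ (s : ℝ) := Nat.cast_nonneg s
  have h6 : (0 : ℝ) ≤ Lr (2 * (s / 2)) ^ 2 := by positivity
  calc Lr s ^ 2 * (s : ℝ) ≤ Lr (2 * (s / 2)) ^ 2 * (s : ℝ) :=
        mul_le_mul_of_nonneg_right h4 h5
    _ ≤ Lr (2 * (s / 2)) ^ 2 * (2 * ((s / 2 : ℕ) : ℝ) + 1) :=
        mul_le_mul_of_nonneg_left h2 h6
    _ ≤ 1 := h3

/-- `Qr k ^ 2 * k ! ≤ 1`. -/
theorem h71_Qr_sq_factorial (k : ℕ) : Qr k ^ 2 * (k.factorial : ℝ) ≤ 1 := by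
  induction k with
  | zero =>
    have h : Qr 0 = 1 := by
      unfold Qr
      simp [Lr_zero]
    rw [h]
    simp
  | succ k ih =>
    have h1 := h71v_Lr_sq_mul_le (k + 1)
    have e : Qr (k + 1) ^ 2 * ((k + 1).factorial : ℝ)
        = (Qr k ^ 2 * (k.factorial : ℝ)) * (Lr (k + 1) ^ 2 * ((k + 1 : ℕ) : ℝ)) := by
      rw [Qr_succ, Nat.factorial_succ]
      push_cast
      ring
    rw [e]
    have h0 : 0 ≤ Qr k ^ 2 * (k.factorial : ℝ) := by positivity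
    have h2 : 0 ≤ Lr (k + 1) ^ 2 * ((k + 1 : ℕ) : ℝ) := by positivity
    calc (Qr k ^ 2 * (k.factorial : ℝ)) * (Lr (k + 1) ^ 2 * ((k + 1 : ℕ) : ℝ))
        ≤ 1 * 1 := mul_le_mul ih h1 h2 (by norm_num)
      _ = 1 := one_mul 1

/-- `Qr k ^ 2 * k ^ k ≤ 4 ^ k`. -/
theorem h71_Qr_sq_pow (k : ℕ) : Qr k ^ 2 * (k : ℝ) ^ k ≤ 4 ^ k := by
  have h1 := Real.pow_div_factorial_le_exp (k : ℝ) (Nat.cast_nonneg k) k
  have hf : (0 : ℝ) < (k.factorial : ℝ) := by exact_mod_cast Nat.factorial_pos k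
  have h2 : (k : ℝ) ^ k ≤ Real.exp k * (k.factorial : ℝ) := by
    rwa [div_le_iff₀ hf] at h1
  have h3 : Real.exp (k : ℝ) ≤ 4 ^ k := by
    rw [← Real.exp_one_pow]
    exact pow_le_pow_left₀ (Real.exp_pos 1).le (by linarith [Real.exp_one_lt_d9]) k
  have h4 := h71_Qr_sq_factorial k
  have hq : 0 ≤ Qr k ^ 2 := by positivity
  calc Qr k ^ 2 * (k : ℝ) ^ k ≤ Qr k ^ 2 * (Real.exp k * (k.factorial : ℝ)) :=
        mul_le_mul_of_nonneg_left h2 hq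
    _ = (Qr k ^ 2 * (k.factorial : ℝ)) * Real.exp k := by ring
    _ ≤ 1 * Real.exp k := mul_le_mul_of_nonneg_right h4 (Real.exp_pos _).le
    _ = Real.exp k := one_mul _
    _ ≤ 4 ^ k := h3

theorem values_num : ∃ C : ℝ, ∀ (m n s : ℕ), 1 ≤ m → 2 ^ 60 * m ^ 2 ≤ n →
    (1 - 40 / Real.logb 2 (n : ℝ)) * (n : ℝ) ≤ (s : ℝ) → s ≤ n →
    (m : ℝ) ^ n * 2 ^ n * Qr (s - m) ≤ C * (243 / 512) ^ n := by
  refine ⟨1, ?_⟩
  intro m n s hm1 hmn hs hsn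
  rw [one_mul]
  -- basic facts
  have hM1 : (1 : ℝ) ≤ (m : ℝ) := by exact_mod_cast hm1
  have hmn' : (2 : ℝ) ^ 60 * (m : ℝ) ^ 2 ≤ (n : ℝ) := by exact_mod_cast hmn
  have hsn' : (s : ℝ) ≤ (n : ℝ) := by exact_mod_cast hsn
  have hMsq : (m : ℝ) ≤ (m : ℝ) ^ 2 := by nlinarith
  have h260 : (0 : ℝ) < 2 ^ 60 := by positivity
  have hn60 : (2 : ℝ) ^ 60 ≤ (n : ℝ) := by
    have h : (2 : ℝ) ^ 60 * 1 ≤ (2 : ℝ) ^ 60 * (m : ℝ) ^ 2 :=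
      mul_le_mul_of_nonneg_left (by linarith) h260.le
    linarith
  have hn0 : (0 : ℝ) < (n : ℝ) := by linarith
  have hn1 : 1 ≤ n := by
    have h : (0 : ℝ) < (n : ℝ) := hn0
    have h' : 0 < n := by exact_mod_cast h
    omega
  have hLsq : Real.logb 2 (n : ℝ) ^ 2 ≤ 4 * (n : ℝ) := h71v_logb_sq_le hn1
  have h2L : (2 : ℝ) ^ Real.logb 2 (n : ℝ) = n :=
    Real.rpow_logb (by norm_num) (by norm_num) hn0
  have hL60 : 60 ≤ Real.logb 2 (n : ℝ) := by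
    rw [Real.le_logb_iff_rpow_le (by norm_num) hn0]
    have e : (2 : ℝ) ^ (60 : ℝ) = (2 : ℝ) ^ (60 : ℕ) := by
      rw [← Real.rpow_natCast]
      norm_num
    rw [e]
    exact hn60
  generalize Real.logb 2 (n : ℝ) = L at *
  have hL0 : 0 < L := by linarith
  -- the hypothesis on s, multiplied out
  have hs' : (n : ℝ) * L - 40 * (n : ℝ) ≤ (s : ℝ) * L := by
    have h1 : (1 - 40 / L) * (n : ℝ) * L ≤ (s : ℝ) * L :=
      mul_le_mul_of_nonneg_right hs hL0.le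
    have h2 : (1 - 40 / L) * (n : ℝ) * L = (n : ℝ) * L - 40 * (n : ℝ) := by
      field_simp
    linarith
  -- m ^ 2 ≤ n / 2 ^ 60 and m * L ≤ n
  have hMa : (m : ℝ) ^ 2 ≤ (n : ℝ) / 2 ^ 60 := by
    rw [le_div_iff₀ h260]
    linarith
  have hML : (m : ℝ) * L ≤ (n : ℝ) := by
    have hb : (m : ℝ) ^ 2 * L ^ 2 ≤ ((n : ℝ) / 2 ^ 60) * (4 * (n : ℝ)) :=
      mul_le_mul hMa hLsq (by positivity) (by positivity)
    have hc : ((n : ℝ) / 2 ^ 60) * (4 * (n : ℝ)) ≤ (n : ℝ) ^ 2 := by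
      have e : ((n : ℝ) / 2 ^ 60) * (4 * (n : ℝ)) = (n : ℝ) ^ 2 * (4 / 2 ^ 60) := by ring
      rw [e]
      calc (n : ℝ) ^ 2 * (4 / 2 ^ 60) ≤ (n : ℝ) ^ 2 * 1 :=
            mul_le_mul_of_nonneg_left (by norm_num) (sq_nonneg _)
        _ = (n : ℝ) ^ 2 := mul_one _
    have hd : ((m : ℝ) * L) ^ 2 ≤ (n : ℝ) ^ 2 := by
      rw [mul_pow]
      exact hb.trans hc
    exact (pow_le_pow_iff_left₀ (by positivity) hn0.le (by norm_num)).mp hd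
  have hn12 : (n : ℝ) / 2 ^ 60 ≤ (n : ℝ) / 12 :=
    div_le_div_of_nonneg_left hn0.le (by norm_num) (by norm_num)
  have hMle : (m : ℝ) ≤ (n : ℝ) / 12 := by linarith
  -- s ≥ n / 3
  have hS3 : (n : ℝ) / 3 ≤ (s : ℝ) := by
    have hNL : 60 * (n : ℝ) ≤ (n : ℝ) * L := by nlinarith
    have h : (n : ℝ) / 3 * L ≤ (s : ℝ) * L := by linarith
    exact le_of_mul_le_mul_right h hL0
  have hms : m ≤ s := by
    have h : (m : ℝ) ≤ (s : ℝ) := by linarith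
    exact_mod_cast h
  -- k = s - m and d = n - k
  obtain ⟨k, hk⟩ : ∃ k : ℕ, s = m + k := Nat.exists_eq_add_of_le hms
  have hkk : s - m = k := by omega
  rw [hkk]
  have hkn : k ≤ n := by omega
  obtain ⟨d, hd⟩ : ∃ d : ℕ, n = k + d := Nat.exists_eq_add_of_le hkn
  have hsR : (s : ℝ) = (m : ℝ) + (k : ℝ) := by exact_mod_cast hk
  have hnR : (n : ℝ) = (k : ℝ) + (d : ℝ) := by exact_mod_cast hd
  have hK4 : (n : ℝ) ≤ 4 * (k : ℝ) := by linarith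
  have hK0 : (0 : ℝ) < (k : ℝ) := by linarith
  have hdL : (d : ℝ) * L ≤ 41 * (n : ℝ) := by
    have e : (d : ℝ) * L = (n : ℝ) * L - (s : ℝ) * L + (m : ℝ) * L := by
      rw [hnR, hsR]
      ring
    linarith
  -- the four power bounds
  have hA : ((m : ℝ) ^ 2) ^ n ≤ ((n : ℝ) / 2 ^ 60) ^ n :=
    pow_le_pow_left₀ (by positivity) hMa n
  have h4kn : (4 : ℝ) ^ k ≤ 4 ^ n := pow_le_pow_right₀ (by norm_num) hkn
  have hB : Qr k ^ 2 * (k : ℝ) ^ k ≤ 4 ^ n := (h71_Qr_sq_pow k).trans h4kn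
  have hC : (n : ℝ) ^ k ≤ 4 ^ n * (k : ℝ) ^ k := by
    calc (n : ℝ) ^ k ≤ (4 * (k : ℝ)) ^ k := pow_le_pow_left₀ hn0.le hK4 k
      _ = 4 ^ k * (k : ℝ) ^ k := mul_pow _ _ _
      _ ≤ 4 ^ n * (k : ℝ) ^ k := mul_le_mul_of_nonneg_right h4kn (by positivity)
  have hD : (n : ℝ) ^ d ≤ ((2 : ℝ) ^ 41) ^ n := by
    have e1 : (n : ℝ) ^ d = (2 : ℝ) ^ (L * (d : ℝ)) := by
      rw [Real.rpow_mul_natCast (by norm_num), h2L]
    have e2 : ((2 : ℝ) ^ 41) ^ n = (2 : ℝ) ^ (((41 * n : ℕ)) : ℝ) := by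
      rw [Real.rpow_natCast, pow_mul]
    rw [e1, e2]
    apply Real.rpow_le_rpow_of_exponent_le (by norm_num)
    push_cast
    linarith
  -- assembly of the squared inequality
  have hX2 : ((m : ℝ) ^ n * 2 ^ n * Qr k) ^ 2 * (k : ℝ) ^ k
      = ((m : ℝ) ^ 2) ^ n * 4 ^ n * (Qr k ^ 2 * (k : ℝ) ^ k) := by
    have e1 : ((m : ℝ) ^ n) ^ 2 = ((m : ℝ) ^ 2) ^ n := by
      rw [← pow_mul, ← pow_mul, mul_comm]
    have e2 : ((2 : ℝ) ^ n) ^ 2 = 4 ^ n := by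
      rw [← pow_mul, mul_comm, pow_mul]
      norm_num
    rw [mul_pow, mul_pow, e1, e2]
    ring
  have hNn : (n : ℝ) ^ n = (n : ℝ) ^ d * (n : ℝ) ^ k := by
    rw [← pow_add]
    congr 1
    omega
  have step1 : ((m : ℝ) ^ 2) ^ n * 4 ^ n * (Qr k ^ 2 * (k : ℝ) ^ k)
      ≤ ((n : ℝ) / 2 ^ 60) ^ n * 4 ^ n * 4 ^ n :=
    mul_le_mul (mul_le_mul_of_nonneg_right hA (by positivity)) hB
      (mul_nonneg (sq_nonneg _) (by positivity)) (by positivity)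
  have step2 : ((n : ℝ) / 2 ^ 60) ^ n * 4 ^ n * 4 ^ n
      = (n : ℝ) ^ d * (n : ℝ) ^ k * (4 ^ n * 4 ^ n / (2 ^ 60) ^ n) := by
    rw [div_pow, hNn]
    ring
  have step3 : (n : ℝ) ^ d * (n : ℝ) ^ k * (4 ^ n * 4 ^ n / (2 ^ 60) ^ n)
      ≤ ((2 : ℝ) ^ 41) ^ n * (4 ^ n * (k : ℝ) ^ k) * (4 ^ n * 4 ^ n / (2 ^ 60) ^ n) :=
    mul_le_mul_of_nonneg_right (mul_le_mul hD hC (by positivity) (by positivity))
      (by positivity)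
  have step4 : ((2 : ℝ) ^ 41) ^ n * (4 ^ n * (k : ℝ) ^ k) * (4 ^ n * 4 ^ n / (2 ^ 60) ^ n)
      = (1 / 2 ^ 13 : ℝ) ^ n * (k : ℝ) ^ k := by
    have e : ((2 : ℝ) ^ 41) ^ n * 4 ^ n * 4 ^ n * 4 ^ n / (2 ^ 60) ^ n = (1 / 2 ^ 13 : ℝ) ^ n := by
      rw [← mul_pow, ← mul_pow, ← mul_pow, ← div_pow]
      norm_num
    rw [← e]
    ring
  have step5 : (1 / 2 ^ 13 : ℝ) ^ n ≤ ((243 / 512 : ℝ) ^ n) ^ 2 := by
    rw [← pow_mul, mul_comm, pow_mul]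
    exact pow_le_pow_left₀ (by norm_num) (by norm_num) n
  have hKk : (0 : ℝ) < (k : ℝ) ^ k := pow_pos hK0 k
  have hfin : ((m : ℝ) ^ n * 2 ^ n * Qr k) ^ 2 * (k : ℝ) ^ k
      ≤ ((243 / 512 : ℝ) ^ n) ^ 2 * (k : ℝ) ^ k := by
    rw [hX2]
    calc ((m : ℝ) ^ 2) ^ n * 4 ^ n * (Qr k ^ 2 * (k : ℝ) ^ k)
        ≤ ((n : ℝ) / 2 ^ 60) ^ n * 4 ^ n * 4 ^ n := step1
      _ = (n : ℝ) ^ d * (n : ℝ) ^ k * (4 ^ n * 4 ^ n / (2 ^ 60) ^ n) := step2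
      _ ≤ ((2 : ℝ) ^ 41) ^ n * (4 ^ n * (k : ℝ) ^ k) * (4 ^ n * 4 ^ n / (2 ^ 60) ^ n) := step3
      _ = (1 / 2 ^ 13 : ℝ) ^ n * (k : ℝ) ^ k := step4
      _ ≤ ((243 / 512 : ℝ) ^ n) ^ 2 * (k : ℝ) ^ k :=
          mul_le_mul_of_nonneg_right step5 hKk.le
  have hsq : ((m : ℝ) ^ n * 2 ^ n * Qr k) ^ 2 ≤ ((243 / 512 : ℝ) ^ n) ^ 2 :=
    le_of_mul_le_mul_right hfin hKk
  have hX0 : 0 ≤ (m : ℝ) ^ n * 2 ^ n * Qr k :=
    mul_nonneg (by positivity) (Qr_pos k).le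
  exact (pow_le_pow_iff_left₀ hX0 (by positivity) (by norm_num)).mp hsq

end Vale.Agent.Lib.P160
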